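import Vale.Agent.P231.H583.YPos
import Vale.Agent.P231.WC.Defs

/-!
# P231, stage 1, block C1: the pairing and the field `Yf`, in the notation of `WC`
-/

set_option maxSynthPendingDepth 3
set_option linter.unusedSectionVars false
set_option linter.unusedVariables false

open Bundle Manifold Set Filter Module
open scoped ContDiff Manifold Topology

namespace Vale.Agent.P231.H583

noncomputable section

open Vale.Agent.P234 Vale.Agent.P231 Vale.Agent.P231.Fm Vale.Agent.P231.W Vale.Agent.P231.WR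
open Vale.Agent.P231.H775

variable {E : Type*} [NormedAddCommGroup E] [NormedSpace ℝ E]
  {M : Type*} [MetricSpace M] [ChartedSpace E M]
  [RiemannianBundle (fun x : M => TangentSpace 𝓘(ℝ, E) x)]
  {e : ∀ x : M, TangentSpace 𝓘(ℝ, E) x → M}
  [FiniteDimensional ℝ E] [IsManifold 𝓘(ℝ, E) ∞ M]
  [IsContMDiffRiemannianBundle 𝓘(ℝ, E) ∞ E (fun x : M => TangentSpace 𝓘(ℝ, E) x)]
  [CompactSpace M] [ConnectedSpace M] [IsRiemannianManifold 𝓘(ℝ, E) M]

theorem wc_Jw (w : UT E M → UT E M) (u : UT E M) (r : ℝ) : WC.Jw e w u r = Jw e w u r := rfl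

theorem wc_Yf (F : Facts e) (D : ℝ) (w : UT E M → UT E M) (v : UT E M) :
    WC.Yf F D w v = Y F w D v := rfl

theorem pairing_pos (F : Facts e) {D : ℝ} (hD : 0 < D) (hB : InjGE e D)
    (hdiam : ∀ p q : M, dist p q ≤ D) {N : ℕ} (hN : finrank ℝ E = N + 1)
    (hK : ∀ (x : M) (v : TangentSpace 𝓘(ℝ, E) x), ‖v‖ = 1 → finrank ℝ (H703.Ker e D x v) = 1)
    {w : UT E M → UT E M} (h : IsSec e D w) (v : UT E M) {r : ℝ} (hr : 0 < r) (hrD : r < D) :
    0 < ip (gm e (v, r)) (WC.Jw e w v r) (vec' (w (phi F (v, r)))) := by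
  rw [ip_comm']
  exact pair_pos F hD hB hdiam hN hK h v hr hrD

theorem Y_pos (F : Facts e) {D : ℝ} (hD : 0 < D) (hB : InjGE e D)
    (hdiam : ∀ p q : M, dist p q ≤ D) {N : ℕ} (hN : finrank ℝ E = N + 1)
    (hK : ∀ (x : M) (v : TangentSpace 𝓘(ℝ, E) x), ‖v‖ = 1 → finrank ℝ (H703.Ker e D x v) = 1)
    {w : UT E M → UT E M} (h : IsSec e D w) (v : UT E M) :
    0 < ip (foot v) (WC.Yf F D w v) (vec' (w v)) := by
  rw [ip_comm']
  exact ip_Y_pos F hD hB hdiam hN hK h v

/-- the Jacobi fields are orthogonal to the geodesic -/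
theorem Jw_perp (F : Facts e) {D : ℝ} {w : UT E M → UT E M} (h : IsSec e D w) (u : UT E M)
    (r : ℝ) : ip (gm e (u, r)) (Jw e w u r) (vec' (phi F (u, r))) = 0 := by
  have h1 := gauss F (foot u) (vec' u) (nm_vec' u) 0 r (vec' (w u))
  have h2 : ip (gam e (foot u) (vec' u) 0) (vec' (w u)) (vel e (foot u) (vec' u) 0) = 0 := by
    rw [gam_zero F.isExp, vel_zero F.isExp, ip_comm']
    exact (h.isL u).orth
  rw [h2, mul_zero] at h1
  exact h1

theorem Y_perp (F : Facts e) {D : ℝ} {w : UT E M → UT E M} (h : IsSec e D w) (v : UT E M) :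
    ip (foot v) (WC.Yf F D w v) (vec' v) = 0 := by
  rw [ip_comm', wc_Yf, ip_Y F h]
  refine (intervalIntegral.integral_congr (g := fun _ => (0 : ℝ)) fun r _ => ?_).trans
    intervalIntegral.integral_zero
  have h1 := Jw_perp F h (phi F (v, -r)) r
  have h2 : phi F (phi F (v, -r), r) = v := by
    rw [phi_add, neg_add_cancel, phi_zero]
  have h3 : gm e (phi F (v, -r), r) = foot v := by
    rw [gm_phi F, neg_add_cancel, gm_zero F]
  rw [h2, h3, ip_comm'] at h1
  exact h1

/-- `Yf` is smooth -/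
theorem map_Yf (F : Facts e) {D : ℝ} {w : UT E M → UT E M} (h : IsSec e D w) :
    (dUT E M).Map (dTM E M) (fun v => tb (foot v) (WC.Yf F D w v)) := map_Y F h

end

end Vale.Agent.P231.H583
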