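import Vale.Agent.P231.WR.Rot
import Vale.Agent.P231.WF.Top

/-!
# P231, stage 1, block C: smooth families of vectors `dE e x v w`; smooth integrals of vector fields
-/

set_option maxSynthPendingDepth 3
set_option linter.unusedSectionVars false
set_option linter.unusedVariables false

open Bundle Manifold Set Filter Module
open scoped ContDiff Manifold Topology

namespace Vale.Agent.P231.H583

noncomputable section

open Vale.Agent.P234 Vale.Agent.P231 Vale.Agent.P231.Fm Vale.Agent.P231.W Vale.Agent.P231.H775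

variable {E : Type*} [NormedAddCommGroup E] [NormedSpace ℝ E]
  {M : Type*} [MetricSpace M] [ChartedSpace E M]
  {V : Type*} [NormedAddCommGroup V] [NormedSpace ℝ V]

/-- constant vectors on a vector space are smooth sections of its tangent bundle -/
theorem contMDiff_mk_const (η : V) :
    ContMDiff 𝓘(ℝ, V) 𝓘(ℝ, V).tangent ∞ (fun s : V => (⟨s, η⟩ : TangentBundle 𝓘(ℝ, V) V)) := by
  intro t
  rw [Bundle.contMDiffAt_totalSpace]
  refine ⟨contMDiffAt_id, ?_⟩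
  refine (contMDiffAt_const (c := η)).congr_of_eventuallyEq
    (Filter.Eventually.of_forall fun w => ?_)
  simp

variable [IsManifold 𝓘(ℝ, E) ∞ M]

/-- the derivative of a smooth map in a fixed direction is a smooth vector field along the map -/
theorem contMDiffAt_dir {G : V → M} {p : V}
    (hG : ∀ᶠ q in 𝓝 p, ContMDiffAt 𝓘(ℝ, V) 𝓘(ℝ, E) ∞ G q) (η : V) :
    ContMDiffAt 𝓘(ℝ, V) 𝓘(ℝ, E).tangent ∞
      (fun q => (⟨G q, mfderiv 𝓘(ℝ, V) 𝓘(ℝ, E) G q η⟩ : TangentBundle 𝓘(ℝ, E) M)) p := by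
  obtain ⟨U, hU, hUo, hpU⟩ := mem_nhds_iff.1 hG
  have h1 : ContMDiffOn 𝓘(ℝ, V) 𝓘(ℝ, E) ∞ G U := fun q hq => (hU hq).contMDiffWithinAt
  have h2 := h1.contMDiffOn_tangentMapWithin (m := ∞) (by simp) hUo.uniqueMDiffOn
  have h3 : ContMDiffAt 𝓘(ℝ, V).tangent 𝓘(ℝ, E).tangent ∞
      (tangentMapWithin 𝓘(ℝ, V) 𝓘(ℝ, E) G U) (⟨p, η⟩ : TangentBundle 𝓘(ℝ, V) V) := by
    refine h2.contMDiffAt ?_
    have h4 : IsOpen (TotalSpace.proj ⁻¹' U : Set (TangentBundle 𝓘(ℝ, V) V)) :=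
      hUo.preimage (FiberBundle.continuous_proj V (TangentSpace 𝓘(ℝ, V) : V → Type _))
    exact h4.mem_nhds hpU
  have h4 := h3.comp p (contMDiff_mk_const η).contMDiffAt
  refine h4.congr_of_eventuallyEq ?_
  filter_upwards [hUo.mem_nhds hpU] with q hq
  show _ = tangentMapWithin 𝓘(ℝ, V) 𝓘(ℝ, E) G U (⟨q, η⟩ : TangentBundle 𝓘(ℝ, V) V)
  unfold tangentMapWithin
  simp only
  rw [mfderivWithin_of_isOpen hUo hq]

/-- partial derivatives -/
theorem mfderiv_dir {G : V × ℝ → M} {s : V} {t : ℝ}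
    (hG : ContMDiffAt 𝓘(ℝ, V × ℝ) 𝓘(ℝ, E) ∞ G (s, t)) :
    mfderiv 𝓘(ℝ, V × ℝ) 𝓘(ℝ, E) G (s, t) ((0, 1) : V × ℝ) =
      mfderiv 𝓘(ℝ, ℝ) 𝓘(ℝ, E) (fun r => G (s, r)) t (1 : ℝ) := by
  have h1 : HasFDerivAt (fun r : ℝ => ((s, r) : V × ℝ)) (ContinuousLinearMap.inr ℝ V ℝ) t :=
    hasFDerivAt_prodMk_right s t
  have h2 : HasMFDerivAt 𝓘(ℝ, ℝ) 𝓘(ℝ, V × ℝ) (fun r : ℝ => ((s, r) : V × ℝ)) t
    (ContinuousLinearMap.inr ℝ V ℝ) := h1.hasMFDerivAt
  have h3 := (hG.mdifferentiableAt (by simp)).hasMFDerivAt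
  have h4 := HasMFDerivAt.comp (x := t) (g := G) (f := fun r : ℝ => ((s, r) : V × ℝ)) h3 h2
  have h5 := h4.mfderiv
  have h6 := congrArg (fun L : ℝ →L[ℝ] E => L (1 : ℝ)) h5
  exact h6.symm

variable {e : ∀ x : M, TangentSpace 𝓘(ℝ, E) x → M}
  [RiemannianBundle (fun x : M => TangentSpace 𝓘(ℝ, E) x)]
  [IsContMDiffRiemannianBundle 𝓘(ℝ, E) ∞ E (fun x : M => TangentSpace 𝓘(ℝ, E) x)]
  [FiniteDimensional ℝ E]

/-- the differential of the exponential map along smooth families -/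
theorem smV_dE (he : IsExp e) {f : V → M} {u w : ∀ s, TangentSpace 𝓘(ℝ, E) (f s)} {s₀ : V}
    (hu : ∀ᶠ s in 𝓝 s₀, SmV f u s) (hw : ∀ᶠ s in 𝓝 s₀, SmV f w s) :
    SmV (fun s => e (f s) (u s)) (fun s => (dE (E := E) e (f s) (u s) (w s) : E)) s₀ := by
  set G : V × ℝ → M := fun p => e (f p.1) (u p.1 + p.2 • w p.1) with hG
  have hfst : ∀ t : ℝ, Tendsto (Prod.fst : V × ℝ → V) (𝓝 (s₀, t)) (𝓝 s₀) := fun t =>
    continuous_fst.tendsto' _ _ rfl
  have h1 : ∀ᶠ p in 𝓝 ((s₀, 0) : V × ℝ), ContMDiffAt 𝓘(ℝ, V × ℝ) 𝓘(ℝ, E) ∞ G p := by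
    filter_upwards [(hfst 0).eventually hu, (hfst 0).eventually hw] with p h1 h2
    have h3 : SmV (fun p : V × ℝ => f p.1) (fun p => u p.1) p := h1.comp contDiffAt_fst
    have h4 : SmV (fun p : V × ℝ => f p.1) (fun p => w p.1) p := h2.comp contDiffAt_fst
    exact (h3.add (h4.smul contDiffAt_snd)).exp he
  have h2 := contMDiffAt_dir h1 ((0, 1) : V × ℝ)
  have h3 : ContMDiffAt 𝓘(ℝ, V) 𝓘(ℝ, V × ℝ) ∞ (fun s : V => ((s, 0) : V × ℝ)) s₀ :=
    (contDiffAt_id.prodMk contDiffAt_const).contMDiffAt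
  have h4 := ContMDiffAt.comp s₀ h2 h3
  refine h4.congr_of_eventuallyEq ?_
  have h5 : Tendsto (fun s : V => ((s, 0) : V × ℝ)) (𝓝 s₀) (𝓝 (s₀, 0)) :=
    h3.continuousAt
  filter_upwards [h5.eventually h1] with s hs
  have h6 := mfderiv_dir hs
  have h7 := Jac.mfderiv_line he (f s) (u s) (w s)
  have h8 : u s + (0 : ℝ) • w s = u s := by rw [zero_smul, add_zero]
  refine Jac.tb_congr ?_ ?_
  · show e (f s) (u s) = e (f s) (u s + (0 : ℝ) • w s)
    rw [h8]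
  · exact h7.symm.trans h6.symm

/-- the integral over time of a smooth family of vector fields is a smooth vector field -/
theorem smV_integral [FiniteDimensional ℝ V] {f : V → M} {u : V → ℝ → E} {s₀ : V} (c : ℝ)
    (hf : ∀ᶠ s in 𝓝 s₀, ContMDiffAt 𝓘(ℝ, V) 𝓘(ℝ, E) ∞ f s)
    (hu : ∀ᶠ s in 𝓝 s₀, ∀ r : ℝ, ContMDiffAt 𝓘(ℝ, V × ℝ) 𝓘(ℝ, E).tangent ∞
      (fun p : V × ℝ => tb (f p.1) (u p.1 p.2)) (s, r)) :
    ContMDiffAt 𝓘(ℝ, V) 𝓘(ℝ, E).tangent ∞ (fun s => tb (f s) (∫ r in (0 : ℝ)..c, u s r)) s₀ := by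
  set x₀ : M := f s₀ with hx₀
  let u' : ∀ p : V × ℝ, TangentSpace 𝓘(ℝ, E) (f p.1) := fun p => u p.1 p.2
  have hsrc : ∀ᶠ s in 𝓝 s₀, f s ∈ (extChartAt 𝓘(ℝ, E) x₀).source :=
    hf.self_of_nhds.continuousAt.eventually
      ((isOpen_extChartAt_source (I := 𝓘(ℝ, E)) x₀).mem_nhds (mem_extChartAt_source x₀))
  obtain ⟨U, hU, hUo, hs₀⟩ := mem_nhds_iff.1 (hsrc.and hu)
  set g : V × ℝ → E := fun p => crd x₀ (f p.1) (u' (p.1, c * p.2)) with hg
  have hgU : ContDiffOn ℝ ∞ g (U ×ˢ univ) := by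
    rintro ⟨s, r⟩ ⟨hs, -⟩
    obtain ⟨h1, h2⟩ := hU hs
    have h3 : SmV (fun p : V × ℝ => f p.1) u' (s, c * r) := h2 (c * r)
    have h4 := ((smV_iff (V := V × ℝ) (f := fun p => f p.1) (u := u') (s := (s, c * r)) x₀ h1).1 h3).2
    have h5 : ContDiffAt ℝ ∞ (fun p : V × ℝ => ((p.1, c * p.2) : V × ℝ)) (s, r) :=
      contDiffAt_fst.prodMk (contDiffAt_const.mul contDiffAt_snd)
    exact (ContDiffAt.comp (s, r) h4 h5).contDiffWithinAt
  have h6 : ContDiffOn ℝ ∞ (fun x => ∫ t in (0 : ℝ)..1, g (x, t)) U :=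
    contDiffOn_time (n := (⊤ : ℕ∞)) (V := E) hUo hgU
  let I : ∀ s, TangentSpace 𝓘(ℝ, E) (f s) := fun s => (∫ r in (0 : ℝ)..c, u s r : E)
  have key : SmV f I s₀ := by
    refine (smV_iff (V := V) (f := f) (u := I) (s := s₀) x₀ (mem_extChartAt_source x₀)).2
      ⟨hf.self_of_nhds, ?_⟩
    have h7 : ContDiffAt ℝ ∞ (fun s => c • ∫ t in (0 : ℝ)..1, g (s, t)) s₀ :=
      (h6.contDiffAt (hUo.mem_nhds hs₀)).const_smul c
    refine h7.congr_of_eventuallyEq ?_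
    filter_upwards [hUo.mem_nhds hs₀] with s hs
    let L : E →L[ℝ] E := crd x₀ (f s)
    have h8 : ∀ t : ℝ, g (s, t) = (fun r => L (u s r)) (c * t) := fun t => rfl
    have h9 : c • ∫ t in (0 : ℝ)..1, g (s, t) = ∫ r in (0 : ℝ)..c, L (u s r) := by
      simp only [h8]
      rw [intervalIntegral.smul_integral_comp_mul_left (fun r => L (u s r)) c]
      simp only [mul_zero, mul_one]
    have h10 : Continuous fun r => u s r := by
      obtain ⟨h1, h2⟩ := hU hs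
      have h11 : Continuous fun r => crd x₀ (f s) (u' (s, r)) := by
        rw [continuous_iff_continuousAt]
        intro r
        have h3 : SmV (fun p : V × ℝ => f p.1) u' (s, r) := h2 r
        have h4 := ((smV_iff (V := V × ℝ) (f := fun p => f p.1) (u := u') (s := (s, r)) x₀ h1).1
          h3).2.continuousAt
        have h5 : ContinuousAt (fun r : ℝ => ((s, r) : V × ℝ)) r :=
          continuousAt_const.prodMk continuousAt_id
        exact ContinuousAt.comp (f := fun r : ℝ => ((s, r) : V × ℝ)) (x := r) h4 h5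
      let L' : E →L[ℝ] E := vec x₀ (f s)
      have h12 : (fun r => u s r) = fun r => L' (crd x₀ (f s) (u' (s, r))) := by
        funext r
        exact (vec_crd x₀ h1 (u' (s, r))).symm
      rw [h12]
      exact L'.continuous.comp h11
    rw [h9]
    exact (ContinuousLinearMap.intervalIntegral_comp_comm L (h10.intervalIntegrable 0 c)).symm
  exact key

end

end Vale.Agent.P231.H583
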