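import Vale.Agent.P231.H997.Pair
import Vale.Agent.P231.H703.Const
import Vale.Agent.P231.WR.Rot

/-!
# P231, stage 1, block C: the pairing `⟨J_u(r), w(φ_r u)⟩` is positive for `0 < r < D`
(multiplicity one)
-/

set_option maxSynthPendingDepth 3
set_option linter.unusedSectionVars false
set_option linter.unusedVariables false

open Bundle Manifold Set Filter Module
open scoped ContDiff Manifold Topology Matrix

namespace Vale.Agent.P231.H583

noncomputable section

open Vale.Agent.P234 Vale.Agent.P231 Vale.Agent.P231.Fm Vale.Agent.P231.W Vale.Agent.P231.WR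

variable {E : Type*} [NormedAddCommGroup E] [NormedSpace ℝ E]
  {M : Type*} [MetricSpace M] [ChartedSpace E M]
  [RiemannianBundle (fun x : M => TangentSpace 𝓘(ℝ, E) x)]
  {e : ∀ x : M, TangentSpace 𝓘(ℝ, E) x → M}

/-- the Jacobi field along the geodesic of `u`, zero at time `0`, with derivative `w u` there,
divided by `r`, at time `r` -/
def Jd (e : ∀ x : M, TangentSpace 𝓘(ℝ, E) x → M) (w : UT E M → UT E M) (u : UT E M) (r : ℝ) : E :=
  dE e (foot u) (r • vec' u) (vec' (w u))

/-- the Jacobi field along the geodesic of `u`, zero at time `0`, with derivative `w u` there -/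
def Jw (e : ∀ x : M, TangentSpace 𝓘(ℝ, E) x → M) (w : UT E M → UT E M) (u : UT E M) (r : ℝ) : E :=
  jf e (foot u) (vec' u) 0 r (vec' (w u))

variable [FiniteDimensional ℝ E] [IsManifold 𝓘(ℝ, E) ∞ M]
  [IsContMDiffRiemannianBundle 𝓘(ℝ, E) ∞ E (fun x : M => TangentSpace 𝓘(ℝ, E) x)]
  [CompactSpace M] [ConnectedSpace M] [IsRiemannianManifold 𝓘(ℝ, E) M]

theorem Jw_eq (F : Facts e) (w : UT E M → UT E M) (u : UT E M) (r : ℝ) :
    Jw e w u r = r • Jd e w u r := H703.jf_zero F _ _ _ _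

/-- the vectors of `L_v` are in the kernel of the differential of the exponential map -/
theorem dE_of_isL (F : Facts e) {D : ℝ} (hD : 0 < D) (hB : InjGE e D)
    (hdiam : ∀ p q : M, dist p q ≤ D) {v w : UT E M} (h : IsL e D v w) :
    dE e (foot v) (D • vec' v) (vec' w) = 0 := by
  have h1 : (vec' (E := E) w : TangentSpace 𝓘(ℝ, E) (foot v)) ∈
      H703.Pl e D (bar e D v) (foot v) := H703.Lk_subset_Pl e D _ _ h.mem_Lk
  exact H703.Pl_inf_le_Ker F hD hB hdiam (nm_vec' v) rfl h1 h.orth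

theorem mem_Ker_of_isL (F : Facts e) {D : ℝ} (hD : 0 < D) (hB : InjGE e D)
    (hdiam : ∀ p q : M, dist p q ≤ D) {v w : UT E M} (h : IsL e D v w) :
    (vec' (E := E) w : TangentSpace 𝓘(ℝ, E) (foot v)) ∈
      H703.Ker e D (foot v) (vec' (E := E) v : TangentSpace 𝓘(ℝ, E) (foot v)) :=
  dE_of_isL F hD hB hdiam h

/-- the pairing does not vanish -/
theorem pair_ne_zero (F : Facts e) {D : ℝ} (hD : 0 < D) (hB : InjGE e D)
    (hdiam : ∀ p q : M, dist p q ≤ D) {N : ℕ} (hN : finrank ℝ E = N + 1)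
    (hK : ∀ (x : M) (v : TangentSpace 𝓘(ℝ, E) x), ‖v‖ = 1 → finrank ℝ (H703.Ker e D x v) = 1)
    {u p q : UT E M} {r : ℝ} (hp : IsL e D u p) (hq : IsL e D (phi F (u, r)) q)
    (hr : 0 < r) (hrD : r < D) :
    ip (gam e (foot u) (vec' u) r) (vec' q) (jf e (foot u) (vec' u) 0 r (vec' p)) ≠ 0 := by
  have hcl : ∀ (x : M) (v : E), nm x v = 2 * D → e x v = x :=
    fun x v hv => closed_of_inj_diam F hD hB hdiam x v hv
  obtain ⟨b, A, hJ, hon, hperp, hcol⟩ := exists_jdata F hD hB hcl hN (foot u) (vec' u) (nm_vec' u)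
  set x := foot u with hx
  set ν := vec' u with hν
  have hnul : H703.nul A D 0 ≤ 1 := by
    have h1 := H703.nul_eq F hD hN (nm_vec' u) hon hperp hcol
    have h2 : finrank ℝ (H703.Ker e D (foot u)
        (vec' (E := E) u : TangentSpace 𝓘(ℝ, E) (foot u))) = 1 := hK _ _ (nm_vec' u)
    exact (h1.trans h2).le
  have hnv : ∀ t, nm (gam e x ν t) (vel e x ν t) = 1 := fun t => (nm_vel F x ν t).trans (nm_vec' u)
  -- coordinates
  let P : Fin N → ℝ := fun i => ip (gam e x ν 0) (b 0 i) (vec' p)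
  let Q : Fin N → ℝ := fun i => ip (gam e x ν r) (b r i) (vec' q)
  have hp0 : ip (gam e x ν 0) (vec' p) (vel e x ν 0) = 0 := by
    rw [gam_zero F.isExp, vel_zero F.isExp, WR.ip_comm']
    exact hp.orth
  have hq0 : ip (gam e x ν r) (vec' q) (vel e x ν r) = 0 := by
    rw [WR.ip_comm']
    exact hq.orth
  have hP : vec' p = ∑ i, P i • b 0 i := H703.frame_complete hN (hnv 0) (hon 0) (hperp 0) hp0
  have hQ : vec' q = ∑ i, Q i • b r i := H703.frame_complete hN (hnv r) (hon r) (hperp r) hq0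
  have hjf : ∀ (s t : ℝ) (c : Fin N → ℝ), jf e x ν s t (∑ j, c j • b s j) =
      ∑ i, (A s t *ᵥ c) i • b t i := by
    intro s t c
    rw [asm_jf_sum]
    have h1 : ∀ j, jf e x ν s t (c j • b s j) = ∑ i, (A s t i j * c j) • b t i := by
      intro j
      rw [asm_jf_smul, hcol, Finset.smul_sum]
      refine Finset.sum_congr rfl fun i _ => ?_
      rw [smul_smul, mul_comm]
    simp_rw [h1]
    rw [Finset.sum_comm]
    refine Finset.sum_congr rfl fun i _ => ?_
    rw [← Finset.sum_smul]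
    rfl
  have hcoord : ∀ (t : ℝ) (c : Fin N → ℝ) (i : Fin N),
      ip (gam e x ν t) (b t i) (∑ j, c j • b t j) = c i := by
    intro t c i
    rw [asm_ip_sum_right]
    simp_rw [asm_ip_smul_right, hon]
    simp
  have hlin : ∀ t (c : Fin N → ℝ), ∑ j, c j • b t j = 0 → c = 0 := by
    intro t c hc
    funext i
    have h5 := hcoord t c i
    rw [hc, asm_ip_zero_right] at h5
    exact h5.symm
  have hP0 : P ≠ 0 := by
    intro h0
    have h1 : vec' p = 0 := by rw [hP, h0]; simp
    have h2 := nm_vec' p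
    rw [h1] at h2
    have h3 : nm (foot p) (0 : E) = 0 := norm_zero (E := TangentSpace 𝓘(ℝ, E) (foot p))
    rw [h3] at h2
    exact zero_ne_one h2
  have hQ0 : Q ≠ 0 := by
    intro h0
    have h1 : vec' q = 0 := by rw [hQ, h0]; simp
    have h2 := nm_vec' q
    rw [h1] at h2
    have h3 : nm (foot q) (0 : E) = 0 := norm_zero (E := TangentSpace 𝓘(ℝ, E) (foot q))
    rw [h3] at h2
    exact zero_ne_one h2
  have hPk : A 0 (0 + D) *ᵥ P = 0 := by
    refine hlin (0 + D) _ ?_
    rw [← hjf, ← hP, zero_add, H703.jf_zero F, dE_of_isL F hD hB hdiam hp, smul_zero]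
  have hQk : A r (r + D) *ᵥ Q = 0 := by
    refine hlin (r + D) _ ?_
    rw [← hjf, ← hQ]
    have h1 : jf e x ν r (r + D) (vec' q) =
        D • dE e (foot (phi F (u, r))) (D • vec' (phi F (u, r))) (vec' q) := by
      unfold jf
      rw [add_sub_cancel_left]
      rfl
    rw [h1, dE_of_isL F hD hB hdiam hq, smul_zero]
  have key := H997.pair_ne_zero hJ hr (by rw [zero_add]; exact hrD) hnul hP0 hQ0 hPk hQk
  have h2 : ip (gam e x ν r) (vec' q) (jf e x ν 0 r (vec' p)) = Q ⬝ᵥ (A 0 r *ᵥ P) := by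
    have e1 : jf e x ν 0 r (vec' p) = ∑ i, (A 0 r *ᵥ P) i • b r i := by rw [← hjf, ← hP]
    rw [e1, asm_ip_sum_right]
    refine Finset.sum_congr rfl fun i _ => ?_
    rw [asm_ip_smul_right, WR.ip_comm', mul_comm]
  rw [h2]
  exact key

end

end Vale.Agent.P231.H583
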