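import Vale.Agent.P231.H583.Pairing
import Vale.Agent.P231.H583.Field

/-!
# P231, stage 1, block C: the field `Y(v) = ∫₀ᴰ J_{φ₋ᵣ v}(r) dr` is smooth and `⟨Y, w⟩ > 0`
-/

set_option maxSynthPendingDepth 3
set_option linter.unusedSectionVars false
set_option linter.unusedVariables false

open Bundle Manifold Set Filter Module
open scoped ContDiff Manifold Topology

namespace Vale.Agent.P231.H583

noncomputable section

open Vale.Agent.P234 Vale.Agent.P231 Vale.Agent.P231.Fm Vale.Agent.P231.W Vale.Agent.P231.WR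
open Vale.Agent.P231.H775

variable {E : Type*} [NormedAddCommGroup E] [NormedSpace ℝ E]
  {M : Type*} [MetricSpace M] [ChartedSpace E M]
  [RiemannianBundle (fun x : M => TangentSpace 𝓘(ℝ, E) x)]
  {e : ∀ x : M, TangentSpace 𝓘(ℝ, E) x → M}
  [FiniteDimensional ℝ E] [IsManifold 𝓘(ℝ, E) ∞ M]
  [IsContMDiffRiemannianBundle 𝓘(ℝ, E) ∞ E (fun x : M => TangentSpace 𝓘(ℝ, E) x)]

/-- `Jd` along plots -/
theorem at_Jd (he : IsExp e) {D : ℝ} {w : UT E M → UT E M} (h : IsSec e D w)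
    {E' : Type} [NormedAddCommGroup E'] [NormedSpace ℝ E'] [FiniteDimensional ℝ E']
    {U : E' → UT E M} {ρ : E' → ℝ} {x : E'} (hU : (dUT E M).At U x) (hρ : Sm ρ x) :
    ∀ᶠ s in 𝓝 x, ContMDiffAt 𝓘(ℝ, E') 𝓘(ℝ, E).tangent ∞
      (fun s => tb (gm e (U s, ρ s)) (Jd e w (U s) (ρ s))) s := by
  have hw : (dUT E M).At (w ∘ U) x := h.map hU
  have h1 : ∀ᶠ s in 𝓝 x, SmV (fun s => foot (U s)) (fun s => tv (U s)) s := hU
  let w' : ∀ s, TangentSpace 𝓘(ℝ, E) (foot (U s)) := fun s => vec' (E := E) (w (U s))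
  have h2 : ∀ᶠ s in 𝓝 x, SmV (fun s => foot (U s)) w' s := by
    have h3 : ∀ᶠ s in 𝓝 x, SmV (fun s => foot (w (U s))) (fun s => tv (w (U s))) s := hw
    filter_upwards [h3] with s hs
    refine ContMDiffAt.congr_of_eventuallyEq hs ?_
    exact Eventually.of_forall fun s' => tb_congr (h.isL (U s')).foot_eq.symm rfl
  let u' : ∀ s, TangentSpace 𝓘(ℝ, E) (foot (U s)) := fun s => ρ s • tv (U s)
  have h4 : ∀ᶠ s in 𝓝 x, SmV (fun s => foot (U s)) u' s := by
    filter_upwards [h1, hρ] with s h3 h5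
    exact h3.smul h5
  filter_upwards [eventually_eventually_nhds.2 h4, eventually_eventually_nhds.2 h2] with s h5 h6
  exact smV_dE he h5 h6

/-- `Jw` along plots -/
theorem at_Jw [CompactSpace M] [ConnectedSpace M] [IsRiemannianManifold 𝓘(ℝ, E) M]
    (F : Facts e) {D : ℝ} {w : UT E M → UT E M} (h : IsSec e D w)
    {E' : Type} [NormedAddCommGroup E'] [NormedSpace ℝ E'] [FiniteDimensional ℝ E']
    {U : E' → UT E M} {ρ : E' → ℝ} {x : E'} (hU : (dUT E M).At U x) (hρ : Sm ρ x) :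
    ∀ᶠ s in 𝓝 x, ContMDiffAt 𝓘(ℝ, E') 𝓘(ℝ, E).tangent ∞
      (fun s => tb (gm e (U s, ρ s)) (Jw e w (U s) (ρ s))) s := by
  filter_upwards [at_Jd F.isExp h hU hρ, hρ] with s h1 h2
  let J' : ∀ s, TangentSpace 𝓘(ℝ, E) (gm e (U s, ρ s)) := fun s => Jd (E := E) e w (U s) (ρ s)
  have h3 : SmV (fun s => gm e (U s, ρ s)) J' s := h1
  have h4 := h3.smul h2
  refine ContMDiffAt.congr_of_eventuallyEq h4 ?_
  exact Eventually.of_forall fun s' => tb_congr rfl (Jw_eq F w _ _)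

variable [CompactSpace M] [ConnectedSpace M] [IsRiemannianManifold 𝓘(ℝ, E) M]

/-- constant plots -/
theorem at_const {E' : Type} [NormedAddCommGroup E'] [NormedSpace ℝ E'] [FiniteDimensional ℝ E']
    (v : UT E M) (x : E') : (dUT E M).At (fun _ : E' => v) x := by
  have h1 : (dTM E M).At (fun _ : E' => v.1) x := Eventually.of_forall fun t => contMDiffAt_const
  exact h1

/-- the pairing, divided by `r` -/
def bq (F : Facts e) (w : UT E M → UT E M) (u : UT E M) (r : ℝ) : ℝ :=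
  ip (gm e (u, r)) (vec' (w (phi F (u, r)))) (Jd e w u r)

/-- the pairing is smooth along plots -/
theorem sm_bq (F : Facts e) {D : ℝ} {w : UT E M → UT E M} (h : IsSec e D w)
    {E' : Type} [NormedAddCommGroup E'] [NormedSpace ℝ E'] [FiniteDimensional ℝ E']
    {U : E' → UT E M} {ρ : E' → ℝ} {x : E'} (hU : (dUT E M).At U x) (hρ : Sm ρ x) :
    Sm (fun s => bq F w (U s) (ρ s)) x := by
  have h1 : ((dUT E M).prod (Dif.lin ℝ)).At (fun s => (U s, ρ s)) x := ⟨hU, hρ⟩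
  have h2 : (dUT E M).At (w ∘ (phi F ∘ fun s => (U s, ρ s))) x := h.map (map_phi F h1)
  have h3 : ∀ᶠ s in 𝓝 x, SmV (fun s => foot (w (phi F (U s, ρ s))))
      (fun s => tv (w (phi F (U s, ρ s)))) s := h2
  filter_upwards [h3, at_Jd F.isExp h hU hρ] with s h4 h5
  let w' : ∀ s, TangentSpace 𝓘(ℝ, E) (gm e (U s, ρ s)) := fun s =>
    vec' (E := E) (w (phi F (U s, ρ s)))
  let J' : ∀ s, TangentSpace 𝓘(ℝ, E) (gm e (U s, ρ s)) := fun s => Jd (E := E) e w (U s) (ρ s)
  have h6 : SmV (fun s => gm e (U s, ρ s)) w' s := by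
    refine ContMDiffAt.congr_of_eventuallyEq h4 ?_
    exact Eventually.of_forall fun s' => tb_congr (h.isL (phi F (U s', ρ s'))).foot_eq.symm rfl
  have h7 : SmV (fun s => gm e (U s, ρ s)) J' s := h5
  exact h6.inner h7

theorem continuous_bq (F : Facts e) {D : ℝ} {w : UT E M → UT E M} (h : IsSec e D w)
    (u : UT E M) : Continuous (bq F w u) := by
  rw [continuous_iff_continuousAt]
  intro r
  exact (sm_bq F h (at_const u r) (Sm.of_contDiff contDiff_id r)).continuousAt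

theorem bq_zero (F : Facts e) {D : ℝ} {w : UT E M → UT E M} (h : IsSec e D w)
    (u : UT E M) : bq F w u 0 = 1 := by
  unfold bq
  rw [phi_zero, gm_zero F]
  have h1 : Jd e w u 0 = vec' (w u) := by
    unfold Jd
    rw [zero_smul]
    exact dE_zero_base F.isExp _ _
  rw [h1]
  exact (h.isL u).ip_self

/-- **the pairing is positive for `0 ≤ r < D`** (multiplicity one) -/
theorem bq_pos (F : Facts e) {D : ℝ} (hD : 0 < D) (hB : InjGE e D)
    (hdiam : ∀ p q : M, dist p q ≤ D) {N : ℕ} (hN : finrank ℝ E = N + 1)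
    (hK : ∀ (x : M) (v : TangentSpace 𝓘(ℝ, E) x), ‖v‖ = 1 → finrank ℝ (H703.Ker e D x v) = 1)
    {w : UT E M → UT E M} (h : IsSec e D w) (u : UT E M) {r : ℝ} (hr : 0 ≤ r) (hrD : r < D) :
    0 < bq F w u r := by
  by_contra hneg
  rw [not_lt] at hneg
  have h1 : ContinuousOn (bq F w u) (Icc 0 r) := (continuous_bq F h u).continuousOn
  have h2 := intermediate_value_Icc' hr h1
  have h3 : (0 : ℝ) ∈ Icc (bq F w u r) (bq F w u 0) := ⟨hneg, by rw [bq_zero F h]; exact zero_le_one⟩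
  obtain ⟨t, ht, hbt⟩ := h2 h3
  have ht0 : 0 < t := by
    rcases ht.1.lt_or_eq with h4 | h4
    · exact h4
    · rw [← h4, bq_zero F h] at hbt
      exact absurd hbt one_ne_zero
  refine pair_ne_zero F hD hB hdiam hN hK (h.isL u) (h.isL (phi F (u, t))) ht0
    (ht.2.trans_lt hrD) ?_
  have h5 : jf e (foot u) (vec' u) 0 t (vec' (w u)) = t • Jd e w u t := H703.jf_zero F _ _ _ _
  rw [h5, ip_smul_right']
  have h6 : ip (gam e (foot u) (vec' u) t) (vec' (w (phi F (u, t)))) (Jd e w u t) = 0 := hbt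
  rw [h6, mul_zero]

/-- `⟨J_u(r), w(φ_r u)⟩ > 0` for `0 < r < D` -/
theorem pair_pos (F : Facts e) {D : ℝ} (hD : 0 < D) (hB : InjGE e D)
    (hdiam : ∀ p q : M, dist p q ≤ D) {N : ℕ} (hN : finrank ℝ E = N + 1)
    (hK : ∀ (x : M) (v : TangentSpace 𝓘(ℝ, E) x), ‖v‖ = 1 → finrank ℝ (H703.Ker e D x v) = 1)
    {w : UT E M → UT E M} (h : IsSec e D w) (u : UT E M) {r : ℝ} (hr : 0 < r) (hrD : r < D) :
    0 < ip (gm e (u, r)) (vec' (w (phi F (u, r)))) (Jw e w u r) := by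
  rw [Jw_eq F, ip_smul_right']
  exact mul_pos hr (bq_pos F hD hB hdiam hN hK h u hr.le hrD)

/-- the field `Y(v) = ∫₀ᴰ J_{φ₋ᵣ v}(r) dr` -/
def Y (F : Facts e) (w : UT E M → UT E M) (D : ℝ) (v : UT E M) : E :=
  ∫ r in (0 : ℝ)..D, Jw e w (phi F (v, -r)) r

/-- the integrand is smooth in `(s, r)` -/
theorem at_integrand (F : Facts e) {D : ℝ} {w : UT E M → UT E M} (h : IsSec e D w)
    {E' : Type} [NormedAddCommGroup E'] [NormedSpace ℝ E'] [FiniteDimensional ℝ E']
    {U : E' → UT E M} {s : E'} (hU : (dUT E M).At U s) (r : ℝ) :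
    ContMDiffAt 𝓘(ℝ, E' × ℝ) 𝓘(ℝ, E).tangent ∞
      (fun p : E' × ℝ => tb (foot (U p.1)) (Jw e w (phi F (U p.1, -p.2)) p.2)) (s, r) := by
  have h1 : (dUT E M).At (fun p : E' × ℝ => U p.1) (s, r) :=
    (dUT E M).comp (u := U) (g := Prod.fst) (x := (s, r)) hU (Sm.of_contDiff contDiff_fst _)
  have h2 : ((dUT E M).prod (Dif.lin ℝ)).At (fun p : E' × ℝ => (U p.1, -p.2)) (s, r) :=
    ⟨h1, Sm.of_contDiff contDiff_snd.neg _⟩
  have h3 : (dUT E M).At (fun p : E' × ℝ => phi F (U p.1, -p.2)) (s, r) := map_phi F h2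
  have h4 := (at_Jw F h h3 (Sm.of_contDiff contDiff_snd _)).self_of_nhds
  refine ContMDiffAt.congr_of_eventuallyEq h4 ?_
  refine Eventually.of_forall fun p => tb_congr ?_ rfl
  show foot (U p.1) = gm e (phi F (U p.1, -p.2), p.2)
  rw [gm_phi F, neg_add_cancel, gm_zero F]

/-- **`Y` is smooth** -/
theorem at_Y (F : Facts e) {D : ℝ} {w : UT E M → UT E M} (h : IsSec e D w)
    {E' : Type} [NormedAddCommGroup E'] [NormedSpace ℝ E'] [FiniteDimensional ℝ E']
    {U : E' → UT E M} {x : E'} (hU : (dUT E M).At U x) :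
    (dTM E M).At (fun s => tb (foot (U s)) (Y F w D (U s))) x := by
  have hf : ∀ᶠ s in 𝓝 x, ContMDiffAt 𝓘(ℝ, E') 𝓘(ℝ, E) ∞ (fun s => foot (U s)) s := map_foot hU
  have h1 := (dUT E M).open' hU
  have key : ∀ᶠ s in 𝓝 x, ContMDiffAt 𝓘(ℝ, E') 𝓘(ℝ, E).tangent ∞
      (fun s => tb (foot (U s)) (Y F w D (U s))) s := by
    filter_upwards [eventually_eventually_nhds.2 hf, eventually_eventually_nhds.2 h1] with s h2 h3
    refine smV_integral D h2 ?_
    filter_upwards [h3] with s' h4 r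
    exact at_integrand F h h4 r
  exact key

theorem map_Y (F : Facts e) {D : ℝ} {w : UT E M → UT E M} (h : IsSec e D w) :
    (dUT E M).Map (dTM E M) (fun v => tb (foot v) (Y F w D v)) := fun hU => at_Y F h hU

/-- the integrand is continuous -/
theorem continuous_integrand (F : Facts e) {D : ℝ} {w : UT E M → UT E M} (h : IsSec e D w)
    (v : UT E M) : Continuous (fun r : ℝ => Jw e w (phi F (v, -r)) r) := by
  rw [continuous_iff_continuousAt]
  intro r
  have h1 := at_integrand (E' := ℝ) F h (at_const v (0 : ℝ)) r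
  have h2 : ContMDiffAt 𝓘(ℝ, ℝ) 𝓘(ℝ, E).tangent ∞
      (fun r : ℝ => tb (foot v) (Jw e w (phi F (v, -r)) r)) r := by
    have h3 : ContMDiffAt 𝓘(ℝ, ℝ) 𝓘(ℝ, ℝ × ℝ) ∞ (fun r : ℝ => ((0, r) : ℝ × ℝ)) r :=
      (contDiffAt_const.prodMk contDiffAt_id).contMDiffAt
    exact ContMDiffAt.comp (f := fun r : ℝ => ((0, r) : ℝ × ℝ)) (g := fun p : ℝ × ℝ =>
      tb (foot v) (Jw e w (phi F (v, -p.2)) p.2)) r h1 h3
  let u' : ∀ r : ℝ, TangentSpace 𝓘(ℝ, E) (foot v) := fun r => Jw (E := E) e w (phi F (v, -r)) r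
  have h3 : SmV (fun _ : ℝ => foot v) u' r := h2
  have hsrc : foot v ∈ (extChartAt 𝓘(ℝ, E) (foot v)).source := mem_extChartAt_source _
  have h4 := ((smV_iff (V := ℝ) (f := fun _ => foot v) (u := u') (s := r) (foot v) hsrc).1
    h3).2.continuousAt
  let L : E →L[ℝ] E := vec (foot v) (foot v)
  have h5 : (fun r : ℝ => Jw e w (phi F (v, -r)) r) =
      fun r => L (crd (foot v) (foot v) (u' r)) := by
    funext r
    exact (vec_crd (foot v) hsrc (u' r)).symm
  rw [h5]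
  exact L.continuous.continuousAt.comp h4

/-- the inner product with a fixed vector, as a continuous linear map -/
def ipL (x : M) (c : E) : E →L[ℝ] ℝ :=
  LinearMap.toContinuousLinearMap
    { toFun := fun a => ip x c a
      map_add' := fun a b => ip_add_right' x c a b
      map_smul' := fun r a => ip_smul_right' x r c a }

theorem ipL_apply (x : M) (c a : E) : ipL x c a = ip x c a := rfl

theorem ip_Y (F : Facts e) {D : ℝ} {w : UT E M → UT E M} (h : IsSec e D w) (v : UT E M) (c : E) :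
    ip (foot v) c (Y F w D v) =
      ∫ r in (0 : ℝ)..D, ip (foot v) c (Jw e w (phi F (v, -r)) r) :=
  (ContinuousLinearMap.intervalIntegral_comp_comm (ipL (foot v) c)
    ((continuous_integrand F h v).intervalIntegrable 0 D)).symm

/-- **`⟨w, Y⟩ > 0`** -/
theorem ip_Y_pos (F : Facts e) {D : ℝ} (hD : 0 < D) (hB : InjGE e D)
    (hdiam : ∀ p q : M, dist p q ≤ D) {N : ℕ} (hN : finrank ℝ E = N + 1)
    (hK : ∀ (x : M) (v : TangentSpace 𝓘(ℝ, E) x), ‖v‖ = 1 → finrank ℝ (H703.Ker e D x v) = 1)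
    {w : UT E M → UT E M} (h : IsSec e D w) (v : UT E M) :
    0 < ip (foot v) (vec' (w v)) (Y F w D v) := by
  rw [ip_Y F h]
  have hc : Continuous fun r : ℝ => ip (foot v) (vec' (w v)) (Jw e w (phi F (v, -r)) r) :=
    (ipL (foot v) (vec' (w v))).continuous.comp (continuous_integrand F h v)
  refine intervalIntegral.intervalIntegral_pos_of_pos_on (hc.intervalIntegrable 0 D) ?_ hD
  intro r hr
  have h1 := pair_pos F hD hB hdiam hN hK h (phi F (v, -r)) hr.1 hr.2
  have h2 : phi F (phi F (v, -r), r) = v := by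
    rw [phi_add, neg_add_cancel, phi_zero]
  have h3 : gm e (phi F (v, -r), r) = foot v := by
    rw [gm_phi F, neg_add_cancel, gm_zero F]
  rw [h2, h3] at h1
  exact h1

end

end Vale.Agent.P231.H583
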